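import Vale.Agent.P217.Defs

/-!
# P217: shared definitions used between the proof modules (not used by the statement)
-/

noncomputable section

namespace Vale.Agent.P217

variable (p n : ℕ) [Fact p.Prime]

/-- An ideal stable under the action of all automorphisms of the special fibre which are close to
the identity. -/
def IsNearInvariant (F : FormalGroup (E0 p n)) (P : Ideal (E0 p n)) : Prop :=
  ∃ M : ℕ, ∀ g σ, IsAut (specialFibre p n F) g → PowerSeries.X ^ p ^ M ∣ g - PowerSeries.X →
    IsAction p n F g σ → ∀ x ∈ P, σ x ∈ P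

/-- The test automorphism `x +_Γ a * x ^ (p ^ e)` of the special fibre. -/
def testAut (F : FormalGroup (E0 p n)) (a : Coef p n) (e : ℕ) : PowerSeries (Coef p n) :=
  (specialFibre p n F).toPowerSeries.subst
    ![PowerSeries.X, PowerSeries.C a * PowerSeries.X ^ p ^ e]

/-- The class of `∂F/∂u_i` over the special fibre (`i : Fin (n - 1)` stands for `u_{i+1}`). -/
def dF (F : FormalGroup (E0 p n)) (i : Fin (n - 1)) : MvPowerSeries (Fin 2) (Coef p n) :=
  fun d => residueMap p n (MvPowerSeries.pderiv (W p n) i (MvPowerSeries.coeff d F.toPowerSeries))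

/-- The inner core for `h ≥ 1`: a near-invariant prime over `I_h`, not
containing `u h`, cannot meet `u h = 0` only in a stratum of codimension two or more. -/
def CharPCore (F : FormalGroup (E0 p n)) : Prop :=
  ∀ (P : Ideal (E0 p n)) (h j : ℕ), P.IsPrime → IsNearInvariant p n F P → 1 ≤ h → h + 2 ≤ j →
    j ≤ n → heightIdeal p n h ≤ P → u p n h ∉ P →
    (P ⊔ Ideal.span {u p n h}).radical = heightIdeal p n j → False

/-- The inner core for `h = 0`: a near-invariant prime not containing `p` is zero. -/
def CharZeroCore (F : FormalGroup (E0 p n)) : Prop :=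
  ∀ (P : Ideal (E0 p n)) (j : ℕ), P.IsPrime → IsNearInvariant p n F P → 1 ≤ j → j ≤ n →
    (p : E0 p n) ∉ P → (P ⊔ Ideal.span {(p : E0 p n)}).radical = heightIdeal p n j → P = ⊥

end Vale.Agent.P217
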