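import Vale.Agent.P217.Base

/-!
# P217: `E0` is complete for its maximal ideal
-/

noncomputable section

namespace Vale.Agent.P217

open MvPowerSeries Finsupp

namespace Adic

variable {R : Type*} [CommRing R] {s : Type*} (J : Ideal R)

/-- Series whose coefficient of degree `d` lies in `J ^ (N - |d|)`. -/
def filt (N : ℕ) : Ideal (MvPowerSeries s R) where
  carrier := {x | ∀ d : s →₀ ℕ, coeff d x ∈ J ^ (N - d.degree)}
  add_mem' ha hb d := by rw [map_add]; exact add_mem (ha d) (hb d)
  zero_mem' d := by simp
  smul_mem' c x hx d := by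
    classical
    rw [smul_eq_mul, coeff_mul]
    refine sum_mem fun e he => ?_
    rw [Finset.HasAntidiagonal.mem_antidiagonal] at he
    refine Ideal.mul_mem_left _ _ (Ideal.pow_le_pow_right ?_ (hx e.2))
    rw [← he, map_add]
    omega

variable {J}

lemma mem_filt {N : ℕ} {x : MvPowerSeries s R} :
    x ∈ filt J N ↔ ∀ d : s →₀ ℕ, coeff d x ∈ J ^ (N - d.degree) := Iff.rfl

lemma filt_mul_le (a b : ℕ) :
    (filt J a : Ideal (MvPowerSeries s R)) * filt J b ≤ filt J (a + b) := by
  classical
  refine Ideal.mul_le.2 fun x hx y hy d => ?_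
  rw [coeff_mul]
  refine sum_mem fun e he => ?_
  rw [Finset.HasAntidiagonal.mem_antidiagonal] at he
  have h := Ideal.mul_mem_mul (hx e.1) (hy e.2)
  rw [← pow_add] at h
  refine Ideal.pow_le_pow_right ?_ h
  rw [← he, map_add]
  omega

variable (J) in
/-- The ideal generated by `J` and the variables. -/
def big : Ideal (MvPowerSeries s R) :=
  J.map (C : R →+* MvPowerSeries s R) ⊔ Ideal.span (Set.range X)

lemma big_le_filt_one : (big J : Ideal (MvPowerSeries s R)) ≤ filt J 1 := by
  classical
  refine sup_le (Ideal.map_le_iff_le_comap.2 fun c hc d => ?_) (Ideal.span_le.2 ?_)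
  · rw [coeff_C]
    split_ifs with h
    · simpa [h] using hc
    · exact zero_mem _
  · rintro _ ⟨i, rfl⟩ d
    rw [coeff_X]
    split_ifs with h
    · simp [h]
    · exact zero_mem _

lemma big_pow_le_filt (N : ℕ) : (big J : Ideal (MvPowerSeries s R)) ^ N ≤ filt J N := by
  induction N with
  | zero => intro x _ d; simp
  | succ N ih =>
    rw [pow_succ]
    exact (Ideal.mul_mono ih big_le_filt_one).trans (filt_mul_le N 1)

variable [Finite s]

lemma mem_span_X_pow (N : ℕ) (x : MvPowerSeries s R)
    (hx : ∀ d : s →₀ ℕ, d.degree < N → coeff d x = 0) :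
    x ∈ (Ideal.span (Set.range X) : Ideal (MvPowerSeries s R)) ^ N := by
  classical
  cases nonempty_fintype s
  let e := Fintype.equivFin s
  induction N generalizing x with
  | zero => simp
  | succ N ih =>
    let g : s → MvPowerSeries s R := fun i d =>
      if ∀ k, e k < e i → d k = 0 then coeff (d + single i 1) x else 0
    have hg : ∀ i d, coeff d (g i) =
        if ∀ k, e k < e i → d k = 0 then coeff (d + single i 1) x else 0 := fun _ _ => rfl
    have hsum : x = ∑ i, X i * g i := by
      ext d
      rw [map_sum]
      have hc : ∀ i, coeff d (X i * g i) = if d i ≠ 0 ∧ (∀ k, e k < e i → d k = 0)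
          then coeff d x else 0 := by
        intro i
        rw [X_def, coeff_monomial_mul, one_mul]
        by_cases hi : d i = 0
        · rw [if_neg (fun h => by have := Finsupp.single_le_iff.1 h; omega), if_neg (by simp [hi])]
        · have hle : single i 1 ≤ d := Finsupp.single_le_iff.2 (Nat.one_le_iff_ne_zero.2 hi)
          rw [if_pos hle, hg, tsub_add_cancel_of_le hle]
          simp only [ne_eq, hi, not_false_eq_true, true_and]
          refine if_congr (forall₂_congr fun k hk => ?_) rfl rfl
          have : k ≠ i := fun h => lt_irrefl _ (h ▸ hk)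
          simp [Finsupp.tsub_apply, this.symm]
      rw [Finset.sum_congr rfl fun i _ => hc i]
      by_cases hd : d = 0
      · subst hd
        simpa using hx 0 (by simp)
      · obtain ⟨i0, hi0, hmin⟩ := Finset.exists_min_image d.support e
          (Finsupp.support_nonempty_iff.2 hd)
        rw [Finset.sum_eq_single i0, if_pos]
        · refine ⟨Finsupp.mem_support_iff.1 hi0, fun k hk => ?_⟩
          by_contra h
          exact absurd (hmin k (Finsupp.mem_support_iff.2 h)) (not_le.2 hk)
        · intro i _ hne
          rw [if_neg]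
          rintro ⟨h1, h2⟩
          rcases lt_trichotomy (e i0) (e i) with h | h | h
          · exact Finsupp.mem_support_iff.1 hi0 (h2 i0 h)
          · exact hne (e.injective h).symm
          · exact absurd (hmin i (Finsupp.mem_support_iff.2 h1)) (not_le.2 h)
        · simp
    rw [hsum, pow_succ']
    refine sum_mem fun i _ => Ideal.mul_mem_mul (Ideal.subset_span ⟨i, rfl⟩) (ih _ fun d hd => ?_)
    rw [hg]
    split_ifs with h
    · exact hx _ (by rw [map_add, degree_single]; omega)
    · rfl

lemma filt_le_big_pow (N : ℕ) : (filt J N : Ideal (MvPowerSeries s R)) ≤ big J ^ N := by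
  classical
  intro x hx
  have hfin : {d : s →₀ ℕ | d.degree < N}.Finite := (Finsupp.finite_of_degree_le N).subset
    fun d hd => le_of_lt (show d.degree < N from hd)
  set S := hfin.toFinset
  have h1 : ∑ d ∈ S, monomial d (coeff d x) ∈ (big J : Ideal (MvPowerSeries s R)) ^ N := by
    refine sum_mem fun d hd => ?_
    have hd' : d.degree < N := by simpa [S] using hd
    have hmon : monomial d (coeff d x) = C (coeff d x) * ∏ i ∈ d.support, X i ^ d i := by
      rw [monomial_eq', Finsupp.prod]
    rw [hmon, show N = (N - d.degree) + d.degree by omega, pow_add]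
    refine Ideal.mul_mem_mul ?_ ?_
    · refine Ideal.pow_right_mono le_sup_left _ ?_
      rw [← Ideal.map_pow]
      exact Ideal.mem_map_of_mem _ (hx d)
    · rw [Finsupp.degree_apply, ← Finset.prod_pow_eq_pow_sum]
      exact Ideal.prod_mem_prod fun i _ =>
        Ideal.pow_mem_pow (Ideal.mem_sup_right (Ideal.subset_span (Set.mem_range_self i))) _
  have h2 : x - ∑ d ∈ S, monomial d (coeff d x) ∈ (big J : Ideal (MvPowerSeries s R)) ^ N := by
    refine Ideal.pow_right_mono le_sup_right _ (mem_span_X_pow N _ fun d hd => ?_)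
    rw [map_sub, map_sum, Finset.sum_eq_single d]
    · simp [coeff_monomial_same]
    · intro b _ hb
      exact coeff_monomial_ne (Ne.symm hb) _
    · intro h
      exact absurd (by simpa [S] using hd) h
  simpa using add_mem h2 h1

theorem big_pow_eq (N : ℕ) : (big J : Ideal (MvPowerSeries s R)) ^ N = filt J N :=
  le_antisymm (big_pow_le_filt N) (filt_le_big_pow N)

theorem isAdicComplete_big [IsAdicComplete J R] :
    IsAdicComplete (big J : Ideal (MvPowerSeries s R)) (MvPowerSeries s R) where
  haus' x hx := by
    ext d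
    rw [map_zero]
    refine IsHausdorff.haus' (I := J) _ fun N => ?_
    have h := hx (N + d.degree)
    rw [SModEq.zero, smul_eq_mul, Ideal.mul_top, big_pow_eq] at h
    rw [SModEq.zero, smul_eq_mul, Ideal.mul_top]
    simpa using h d
  prec' f hf := by
    have hc : ∀ d : s →₀ ℕ, ∃ L : R, ∀ N, coeff d (f (N + d.degree)) ≡ L
        [SMOD (J ^ N • ⊤ : Submodule R R)] := by
      intro d
      refine IsPrecomplete.prec' (fun N => coeff d (f (N + d.degree))) fun {a b} hab => ?_
      have h := hf (Nat.add_le_add_right hab d.degree)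
      rw [SModEq.sub_mem, smul_eq_mul, Ideal.mul_top, big_pow_eq] at h
      rw [SModEq.sub_mem, smul_eq_mul, Ideal.mul_top]
      simpa using h d
    choose L hL using hc
    refine ⟨show MvPowerSeries s R from fun d => L d, fun N => ?_⟩
    change f N ≡ _ [SMOD _]
    rw [SModEq.sub_mem, smul_eq_mul, Ideal.mul_top, big_pow_eq]
    intro d
    rw [map_sub]
    change coeff d (f N) - L d ∈ _
    by_cases hd : N ≤ d.degree
    · simp [Nat.sub_eq_zero_of_le hd]
    · have h := hL d (N - d.degree)
      rw [SModEq.sub_mem, smul_eq_mul, Ideal.mul_top, Nat.sub_add_cancel (by omega)] at h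
      exact h

end Adic

variable (p n : ℕ) [Fact p.Prime]

theorem maximalIdeal_eq_big : IsLocalRing.maximalIdeal (E0 p n) =
    (Adic.big (Ideal.span {(p : W p n)}) : Ideal (E0 p n)) := by
  refine le_antisymm (fun x hx => ?_) ?_
  · suffices key : x ∈ (Adic.filt (Ideal.span {(p : W p n)}) 1 : Ideal (E0 p n)) by
      rw [← Adic.big_pow_eq, pow_one] at key; exact key
    intro d
    by_cases hd : d = 0
    · subst hd
      have hu : ¬ IsUnit (MvPowerSeries.constantCoeff x) := fun h =>
        ((IsLocalRing.mem_maximalIdeal x).1 hx) (MvPowerSeries.isUnit_iff_constantCoeff.2 h)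
      simp only [map_zero, Nat.sub_zero, pow_one, MvPowerSeries.coeff_zero_eq_constantCoeff]
      rw [← WittVector.ker_constantCoeff, RingHom.mem_ker]
      by_contra h
      exact hu (WittVector.isUnit_of_coeff_zero_ne_zero _ h)
    · have : 1 ≤ d.degree := by
        rw [Nat.one_le_iff_ne_zero, Ne, Finsupp.degree_eq_zero_iff]; exact hd
      simp [Nat.sub_eq_zero_of_le this]
  · refine sup_le (Ideal.map_le_iff_le_comap.2 ?_) (Ideal.span_le.2 ?_)
    · rw [Ideal.span_le, Set.singleton_subset_iff]
      change MvPowerSeries.C (p : W p n) ∈ IsLocalRing.maximalIdeal (E0 p n)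
      rw [IsLocalRing.mem_maximalIdeal, mem_nonunits_iff, MvPowerSeries.isUnit_iff_constantCoeff,
        MvPowerSeries.constantCoeff_C]
      intro h
      exact not_isUnit_zero (M₀ := Coef p n)
        (by simpa using h.map (WittVector.constantCoeff (p := p) (R := Coef p n)))
    · rintro _ ⟨i, rfl⟩
      rw [SetLike.mem_coe, IsLocalRing.mem_maximalIdeal, mem_nonunits_iff,
        MvPowerSeries.isUnit_iff_constantCoeff, MvPowerSeries.constantCoeff_X]
      exact not_isUnit_zero

/-- Membership in powers of the maximal ideal, coefficient by coefficient. -/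
theorem mem_maximalIdeal_pow {N : ℕ} {x : E0 p n} :
    x ∈ IsLocalRing.maximalIdeal (E0 p n) ^ N ↔
      ∀ d : Fin (n - 1) →₀ ℕ, (p : W p n) ^ (N - d.degree) ∣ MvPowerSeries.coeff d x := by
  rw [maximalIdeal_eq_big, Adic.big_pow_eq, Adic.mem_filt]
  simp only [Ideal.span_singleton_pow, Ideal.mem_span_singleton]

instance isAdicComplete_E0 :
    IsAdicComplete (IsLocalRing.maximalIdeal (E0 p n)) (E0 p n) := by
  rw [maximalIdeal_eq_big]
  exact Adic.isAdicComplete_big

end Vale.Agent.P217
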