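import Mathlib

/-!
# P217: the Lubin-Tate ring, the stabilizer action and the height ideals

`E0 p n` is `W(F_{p^n})[[u_1, ..., u_{n-1}]]`. The universal deformation of the Honda formal group
is the formal group law over `E0 p n` whose logarithm is Hazewinkel's series with parameters
`u_1, ..., u_{n-1}, 1, 0, 0, ...`. An automorphism of the special fibre acts on `E0 p n` through the
unique `W`-algebra endomorphism along which it lifts.
-/

noncomputable section

namespace Vale.Agent.P217

variable (p n : ℕ) [Fact p.Prime]

/-- The field with `p ^ n` elements. -/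
abbrev Coef := GaloisField p n

/-- The Witt vectors of the field with `p ^ n` elements. -/
abbrev W := WittVector p (Coef p n)

/-- The Lubin-Tate ring `W(F_{p^n})[[u_1, ..., u_{n-1}]]`. -/
abbrev E0 := MvPowerSeries (Fin (n - 1)) (W p n)

/-- The parameters: `u i` is the `i`-th variable for `1 ≤ i < n`, `u n = 1`, and `u i = 0`
otherwise. -/
def u (i : ℕ) : E0 p n :=
  if h : 1 ≤ i ∧ i < n then MvPowerSeries.X ⟨i - 1, by omega⟩ else if i = n then 1 else 0

/-- The height ideals `I_0 = 0` and `I_h = (p, u_1, ..., u_{h-1})` for `h ≥ 1`. -/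
def heightIdeal (h : ℕ) : Ideal (E0 p n) :=
  if h = 0 then ⊥ else Ideal.span (insert (p : E0 p n) (u p n '' Set.Ico 1 h))

/-- `E0[1/p]`. -/
abbrev E0inv := Localization.Away (p : E0 p n)

/-- Hazewinkel's logarithm coefficients: `ℓ 0 = 1` and
`p * ℓ t = ∑ s < t, ℓ s * (u (t - s)) ^ (p ^ s)` in `E0[1/p]`. -/
def logCoeff : ℕ → E0inv p n
  | 0 => 1
  | t + 1 => IsLocalization.Away.invSelf (p : E0 p n) *
      ∑ s : Fin (t + 1), logCoeff s.1 *
        algebraMap (E0 p n) (E0inv p n) (u p n (t + 1 - s.1)) ^ p ^ s.1

/-- The logarithm `∑ t, ℓ t * x ^ (p ^ t)`. -/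
def logSeries : PowerSeries (E0inv p n) :=
  PowerSeries.mk fun d => if d = p ^ Nat.log p d then logCoeff p n (Nat.log p d) else 0

/-- `F` has Hazewinkel's logarithm: `log (F (x, y)) = log x + log y` over `E0[1/p]`. -/
def IsHazewinkel (F : FormalGroup (E0 p n)) : Prop :=
  (logSeries p n).subst (F.map (algebraMap (E0 p n) (E0inv p n))).toPowerSeries =
    (logSeries p n).subst (MvPowerSeries.X 0 : MvPowerSeries (Fin 2) (E0inv p n)) +
      (logSeries p n).subst (MvPowerSeries.X 1 : MvPowerSeries (Fin 2) (E0inv p n))

/-- The residue map to the field with `p ^ n` elements. -/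
def residueMap : E0 p n →+* Coef p n :=
  WittVector.constantCoeff.comp MvPowerSeries.constantCoeff

/-- The Galois generator, acting on the coefficients of a power series. -/
def coefFrobenius : E0 p n →+* E0 p n :=
  MvPowerSeries.map WittVector.frobenius

variable {R : Type} [CommRing R]

/-- `φ` is a homomorphism of formal group laws from `F` to `G`:
`φ 0 = 0` and `φ (F (x, y)) = G (φ x, φ y)`. -/
def IsHom (F G : FormalGroup R) (φ : PowerSeries R) : Prop :=
  φ.constantCoeff = 0 ∧
    φ.subst F.toPowerSeries = G.toPowerSeries.subst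
      ![φ.subst (MvPowerSeries.X 0 : MvPowerSeries (Fin 2) R),
        φ.subst (MvPowerSeries.X 1 : MvPowerSeries (Fin 2) R)]

/-- An automorphism of the formal group law `F`: an endomorphism with invertible linear term. -/
def IsAut (F : FormalGroup R) (g : PowerSeries R) : Prop :=
  IsHom F F g ∧ IsUnit (PowerSeries.coeff 1 g)

/-- The multiplication-by-`m` series of a formal group law. -/
def nsmulSeries (F : FormalGroup R) : ℕ → PowerSeries R
  | 0 => 0
  | m + 1 => F.toPowerSeries.subst ![PowerSeries.X, nsmulSeries F m]

/-- The special fibre of a formal group law over `E0`. -/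
def specialFibre (F : FormalGroup (E0 p n)) : FormalGroup (Coef p n) :=
  F.map (residueMap p n)

/-- `σ` is the action of the automorphism `g` of the special fibre: `g` lifts to a homomorphism
from `F` to the base change of `F` along `σ`. -/
def IsAction (F : FormalGroup (E0 p n)) (g : PowerSeries (Coef p n))
    (σ : E0 p n →ₐ[W p n] E0 p n) : Prop :=
  ∃ φ : PowerSeries (E0 p n),
    PowerSeries.map (residueMap p n) φ = g ∧ IsHom F (F.map σ.toRingHom) φ

/-- An ideal is invariant if the action of every automorphism of the special fibre and the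
coefficientwise Frobenius carry it into itself. -/
def IsInvariant (F : FormalGroup (E0 p n)) (P : Ideal (E0 p n)) : Prop :=
  (∀ g σ, IsAut (specialFibre p n F) g → IsAction p n F g σ → ∀ x ∈ P, σ x ∈ P) ∧
    ∀ x ∈ P, coefFrobenius p n x ∈ P

/-- `F` is a universal deformation of its special fibre: for every complete Noetherian local
`W`-algebra `S` with the same residue field, every commutative deformation `G` over `S` is
obtained by base change along a unique `W`-algebra map, up to an isomorphism which is the
identity on the special fibre. -/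
def IsUniversal (F : FormalGroup (E0 p n)) : Prop :=
  ∀ (S : Type) [CommRing S] [IsLocalRing S] [IsNoetherianRing S]
    [IsAdicComplete (IsLocalRing.maximalIdeal S) S] [Algebra (W p n) S],
    Function.Surjective ((IsLocalRing.residue S).comp (algebraMap (W p n) S)) →
    ∀ G : FormalGroup S, G.IsComm →
      (∀ d : Fin 2 →₀ ℕ, MvPowerSeries.coeff d G.toPowerSeries -
        algebraMap (W p n) S (MvPowerSeries.constantCoeff (MvPowerSeries.coeff d F.toPowerSeries))
          ∈ IsLocalRing.maximalIdeal S) →
      ∃! σ : E0 p n →ₐ[W p n] S, ∃ φ : PowerSeries S,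
        IsHom (F.map σ.toRingHom) G φ ∧
          ∀ i, PowerSeries.coeff i φ - PowerSeries.coeff i PowerSeries.X
            ∈ IsLocalRing.maximalIdeal S

end Vale.Agent.P217
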