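import Vale.Agent.P217.Defs

/-!
# P217: the hand-in statement, written over a general ring and then specialised to `E0`

These are the notions of `Vale.Agent.P217.Defs`, with the rings as variables, so that the statement
can be printed in full.
-/

noncomputable section

namespace Vale.Agent.P217.Spec

variable {A R k : Type} [CommRing A] [CommRing R] [CommRing k] [Algebra A R]

/-- Hazewinkel's coefficients in `R[1/p]` for parameters `v`: `ℓ 0 = 1` and
`p * ℓ t = ∑ s < t, ℓ s * v (t - s) ^ (p ^ s)`. -/
def hazCoeff (p : ℕ) (v : ℕ → R) : ℕ → Localization.Away (p : R)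
  | 0 => 1
  | t + 1 => IsLocalization.Away.invSelf (p : R) *
      ∑ s : Fin (t + 1), hazCoeff p v s.1 *
        algebraMap R (Localization.Away (p : R)) (v (t + 1 - s.1)) ^ p ^ s.1

/-- The series `∑ t, ℓ t * x ^ (p ^ t)`. -/
def hazLog (p : ℕ) (v : ℕ → R) : PowerSeries (Localization.Away (p : R)) :=
  PowerSeries.mk fun d => if d = p ^ Nat.log p d then hazCoeff p v (Nat.log p d) else 0

/-- `log (F (x, y)) = log x + log y` over `R[1/p]`, for Hazewinkel's logarithm with parameters
`v`. -/
def HasHazewinkelLog (p : ℕ) (v : ℕ → R) (F : FormalGroup R) : Prop :=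
  (hazLog p v).subst (F.map (algebraMap R (Localization.Away (p : R)))).toPowerSeries =
    (hazLog p v).subst (MvPowerSeries.X 0 : MvPowerSeries (Fin 2) (Localization.Away (p : R))) +
      (hazLog p v).subst (MvPowerSeries.X 1 : MvPowerSeries (Fin 2) (Localization.Away (p : R)))

/-- `F` over the `A`-algebra `R` is a universal deformation; `ev` is the base point: for every
complete Noetherian local `A`-algebra `S` with residue field a quotient of `A`, every commutative
law `G` over `S` with the special fibre of `F` is a base change of `F` along a unique `A`-algebra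
map, up to an isomorphism which is `x` modulo the maximal ideal. -/
def IsUniversalDeformation (ev : R →+* A) (F : FormalGroup R) : Prop :=
  ∀ (S : Type) [CommRing S] [IsLocalRing S] [IsNoetherianRing S]
    [IsAdicComplete (IsLocalRing.maximalIdeal S) S] [Algebra A S],
    Function.Surjective ((IsLocalRing.residue S).comp (algebraMap A S)) →
    ∀ G : FormalGroup S, G.IsComm →
      (∀ d : Fin 2 →₀ ℕ, MvPowerSeries.coeff d G.toPowerSeries -
        algebraMap A S (ev (MvPowerSeries.coeff d F.toPowerSeries))
          ∈ IsLocalRing.maximalIdeal S) →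
      ∃! σ : R →ₐ[A] S, ∃ φ : PowerSeries S,
        IsHom (F.map σ.toRingHom) G φ ∧
          ∀ i, PowerSeries.coeff i φ - PowerSeries.coeff i PowerSeries.X
            ∈ IsLocalRing.maximalIdeal S

variable (A) in
/-- `σ` is the action of the automorphism `g` of the fibre `F.map ρ`. -/
def Acts (ρ : R →+* k) (F : FormalGroup R) (g : PowerSeries k) (σ : R →ₐ[A] R) : Prop :=
  ∃ φ : PowerSeries R, PowerSeries.map ρ φ = g ∧ IsHom F (F.map σ.toRingHom) φ

variable (A) in
/-- Every automorphism of the fibre `F.map ρ` acts in exactly one way. -/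
def HasUniqueAction (ρ : R →+* k) (F : FormalGroup R) : Prop :=
  ∀ g, IsAut (F.map ρ) g → ∃! σ : R →ₐ[A] R, Acts A ρ F g σ

variable (A) in
/-- An ideal stable under the action of all automorphisms of the fibre and under `τ`. -/
def IsStable (ρ : R →+* k) (τ : R →+* R) (F : FormalGroup R) (P : Ideal R) : Prop :=
  (∀ g, ∀ σ : R →ₐ[A] R, IsAut (F.map ρ) g → Acts A ρ F g σ → ∀ x ∈ P, σ x ∈ P) ∧
    ∀ x ∈ P, τ x ∈ P

variable (A) in
/-- The stable primes are exactly `I 0, ..., I n`; the stable radical ideals are exactly these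
and the unit ideal. -/
def StableIdealsAre (ρ : R →+* k) (τ : R →+* R) (F : FormalGroup R) (n : ℕ) (I : ℕ → Ideal R) :
    Prop :=
  (∀ P : Ideal R, (P.IsPrime ∧ IsStable A ρ τ F P) ↔ ∃ h ≤ n, P = I h) ∧
    ∀ J : Ideal R, (J.IsRadical ∧ IsStable A ρ τ F J) ↔ ((∃ h ≤ n, J = I h) ∨ J = ⊤)

end Vale.Agent.P217.Spec
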