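import Vale.Agent.P217.Statement
import Vale.Agent.P217.Spec
import Vale.Agent.P217.Core.Engine
import Vale.Agent.P217.Core.Displacement
import Vale.Agent.P217.Core.CharZero
import Vale.Agent.P217.Core.Reduction

/-!
# P217 module I: assembly
-/

noncomputable section

namespace Vale.Agent.P217

theorem isNearInvariant_of_isInvariant {p n : ℕ} [Fact p.Prime] {F : FormalGroup (E0 p n)}
    {P : Ideal (E0 p n)} (h : IsInvariant p n F P) : IsNearInvariant p n F P :=
  ⟨0, fun g σ hg _ hσ => h.1 g σ hg hσ⟩

theorem mainStatement : MainStatement := by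
  intro p n _ hn
  obtain ⟨F, hc, hF⟩ := FG.exists_isHazewinkel p n
  have := hc
  have hp : CharPCore p n F := fun P h j hP hinv h1 hj hjn hle hu hrad =>
    (exists_engineData hF hP hinv h1 hj hjn hle hu hrad).elim (engineData_false hn)
  have h0 := charZeroCore hF hn
  refine ⟨F, hc, hF, isUniversal_of_isHazewinkel hF hn, FG.specialFibre_nsmul p n hF hn,
    existsUnique_action hF hn, fun P => ⟨fun hP => ?_, ?_⟩, fun J => ⟨fun hJ => ?_, ?_⟩⟩
  · exact prime_classification hF hn hp h0 hP.1 (isNearInvariant_of_isInvariant hP.2)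
  · rintro ⟨h, hh, rfl⟩
    exact ⟨heightIdeal_isPrime hh, heightIdeal_isInvariant hF hh⟩
  · exact radical_classification hF hn hp h0 hJ.1 (isNearInvariant_of_isInvariant hJ.2)
  · rintro (⟨h, hh, rfl⟩ | rfl)
    · exact ⟨(heightIdeal_isPrime hh).isRadical, heightIdeal_isInvariant hF hh⟩
    · exact ⟨fun x _ => trivial, fun _ _ _ _ _ _ => trivial, fun _ _ => trivial⟩

theorem hazCoeff_eq (p n : ℕ) [Fact p.Prime] (t : ℕ) :
    Spec.hazCoeff p (u p n) t = logCoeff p n t := by
  induction t using Nat.strong_induction_on with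
  | _ t ih =>
    cases t with
    | zero => rw [Spec.hazCoeff, logCoeff]
    | succ t =>
      rw [Spec.hazCoeff, logCoeff]
      congr 1
      exact Finset.sum_congr rfl fun s _ => by rw [ih s.1 s.2]

theorem hasHazewinkelLog_of {p n : ℕ} [Fact p.Prime] {F : FormalGroup (E0 p n)}
    (hF : IsHazewinkel p n F) : Spec.HasHazewinkelLog p (u p n) F := by
  have h : Spec.hazLog p (u p n) = logSeries p n := by
    unfold Spec.hazLog logSeries
    simp only [hazCoeff_eq]
  unfold Spec.HasHazewinkelLog
  rw [h]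
  exact hF

/-- The main statement in the form of `Spec`. -/
theorem mainStatement' (p n : ℕ) [Fact p.Prime] (hn : 1 ≤ n) :
    ∃ F : FormalGroup (E0 p n), F.IsComm ∧ Spec.HasHazewinkelLog p (u p n) F ∧
      Spec.IsUniversalDeformation (A := W p n) MvPowerSeries.constantCoeff F ∧
      nsmulSeries (F.map (residueMap p n)) p = PowerSeries.X ^ p ^ n ∧
      Spec.HasUniqueAction (W p n) (residueMap p n) F ∧
      Spec.StableIdealsAre (W p n) (residueMap p n) (coefFrobenius p n) F n (heightIdeal p n) := by
  obtain ⟨F, hc, hF, hU, hH, hA, hP, hJ⟩ := mainStatement p n hn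
  exact ⟨F, hc, hasHazewinkelLog_of hF, hU, hH, hA, hP, hJ⟩

end Vale.Agent.P217
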