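import Vale.Agent.P217.Defs

/-!
# P217: the target statement for the first question

`MainStatement` is what the hand-in has to prove.
-/

namespace Vale.Agent.P217

/-- For every prime `p` and every `n ≥ 1` there is a commutative formal group law `F` over `E0`
with Hazewinkel's logarithm, which is a universal deformation of its special fibre, the special
fibre has `[p] x = x ^ (p ^ n)`, every automorphism of the special fibre has a unique action on
`E0`, the invariant primes are exactly the height ideals `I_0, ..., I_n`, and the invariant
radical ideals are exactly these and the unit ideal. -/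
def MainStatement : Prop :=
  ∀ (p n : ℕ) [Fact p.Prime], 1 ≤ n →
    ∃ F : FormalGroup (E0 p n), F.IsComm ∧ IsHazewinkel p n F ∧ IsUniversal p n F ∧
      nsmulSeries (specialFibre p n F) p = PowerSeries.X ^ p ^ n ∧
      (∀ g, IsAut (specialFibre p n F) g → ∃! σ, IsAction p n F g σ) ∧
      (∀ P : Ideal (E0 p n), (P.IsPrime ∧ IsInvariant p n F P) ↔
        ∃ h ≤ n, P = heightIdeal p n h) ∧
      (∀ J : Ideal (E0 p n), (J.IsRadical ∧ IsInvariant p n F J) ↔
        ((∃ h ≤ n, J = heightIdeal p n h) ∨ J = ⊤))

end Vale.Agent.P217
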